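import Mathlib

/-!
# P141, line (A): layers of a packed family of cells

`𝒜` a finite family with a containment relation `le` for which the members containing a given
member form a chain; `N Q` the number of members which contain `Q`; `w` a weight with packing
constant `B`. The weight of the members with `N > i` decays like `(1 - 1 / B) ^ i`.
-/

namespace Vale.Agent.P141.H867

open Finset

noncomputable section

open scoped Classical

variable {σ : Type*}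

/-- number of members of the family which contain `Q` -/
def cnt (le : σ → σ → Prop) (𝒜 : Finset σ) (Q : σ) : ℕ := (𝒜.filter fun P => le Q P).card

/-- weight of the members with at least `i` containing members -/
def lay (le : σ → σ → Prop) (𝒜 : Finset σ) (w : σ → ℝ) (i : ℕ) : ℝ :=
  ∑ Q ∈ 𝒜.filter fun Q => i ≤ cnt le 𝒜 Q, w Q

variable {le : σ → σ → Prop} {𝒜 : Finset σ} {w : σ → ℝ} {B : ℝ}

theorem cnt_pos (hr : ∀ Q, le Q Q) {Q : σ} (hQ : Q ∈ 𝒜) : 1 ≤ cnt le 𝒜 Q :=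
  card_pos.2 ⟨Q, mem_filter.2 ⟨hQ, hr Q⟩⟩

theorem cnt_le (ht : ∀ P Q R, le P Q → le Q R → le P R) {P Q : σ} (h : le Q P) :
    cnt le 𝒜 P ≤ cnt le 𝒜 Q :=
  card_le_card fun R hR => by
    rw [mem_filter] at hR ⊢
    exact ⟨hR.1, ht _ _ _ h hR.2⟩

/-- a proper container is contained in fewer members -/
theorem cnt_lt (hr : ∀ Q, le Q Q) (ht : ∀ P Q R, le P Q → le Q R → le P R) {P Q : σ}
    (hQ : Q ∈ 𝒜) (h : le Q P) (h' : ¬ le P Q) : cnt le 𝒜 P < cnt le 𝒜 Q :=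
  card_lt_card ⟨fun R hR => by
    rw [mem_filter] at hR ⊢
    exact ⟨hR.1, ht _ _ _ h hR.2⟩, fun hs => h' (mem_filter.1 (hs (mem_filter.2 ⟨hQ, hr Q⟩))).2⟩

/-- members with the same count are incomparable -/
theorem inc_of_cnt (hr : ∀ Q, le Q Q) (ht : ∀ P Q R, le P Q → le Q R → le P R)
    (ha : ∀ P Q, le P Q → le Q P → P = Q) {P Q : σ} (hQ : Q ∈ 𝒜)
    (he : cnt le 𝒜 P = cnt le 𝒜 Q) (h : le Q P) : P = Q := by
  by_contra hne
  have h' : ¬ le P Q := fun h'' => hne (ha _ _ h'' h)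
  have := cnt_lt hr ht hQ h h'
  omega

/-- below a member with at least `i` containers there is one with exactly `i` -/
theorem ex_layer (hr : ∀ Q, le Q Q) (ht : ∀ P Q R, le P Q → le Q R → le P R)
    (ha : ∀ P Q, le P Q → le Q P → P = Q)
    (hc : ∀ Q P R, le Q P → le Q R → le P R ∨ le R P) {i : ℕ} (hi : 1 ≤ i) :
    ∀ m : ℕ, ∀ Q ∈ 𝒜, cnt le 𝒜 Q = i + m → ∃ P ∈ 𝒜, le Q P ∧ cnt le 𝒜 P = i := by
  intro m
  induction m with
  | zero => intro Q hQ h; exact ⟨Q, hQ, hr Q, h⟩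
  | succ m ih =>
    intro Q hQ h
    -- the smallest proper container
    have h2 : (((𝒜.filter fun P => le Q P).erase Q)).Nonempty := by
      have h3 : (𝒜.filter fun P => le Q P).card = i + (m + 1) := h
      obtain ⟨R, hR, hne⟩ := exists_mem_ne (lt_of_lt_of_eq (by omega : 1 < i + (m + 1)) h3.symm) Q
      exact ⟨R, mem_erase.2 ⟨hne, hR⟩⟩
    obtain ⟨P, hP, hmax⟩ := exists_max_image _ (fun P => cnt le 𝒜 P) h2
    rw [mem_erase, mem_filter] at hP
    have hPQ : ¬ le P Q := fun h'' => hP.1 (ha _ _ h'' hP.2.2)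
    have hset : (𝒜.filter fun R => le Q R) = insert Q (𝒜.filter fun R => le P R) := by
      ext R
      rw [mem_insert, mem_filter, mem_filter]
      constructor
      · rintro ⟨hR, hQR⟩
        by_cases e : R = Q
        · exact Or.inl e
        · refine Or.inr ⟨hR, ?_⟩
          rcases hc Q P R hP.2.2 hQR with h3 | h3
          · exact h3
          · by_contra h4
            have h5 : cnt le 𝒜 P < cnt le 𝒜 R := cnt_lt hr ht hR h3 h4
            have h6 := hmax R (mem_erase.2 ⟨e, mem_filter.2 ⟨hR, hQR⟩⟩)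
            omega
      · rintro (rfl | ⟨hR, hPR⟩)
        · exact ⟨hQ, hr _⟩
        · exact ⟨hR, ht _ _ _ hP.2.2 hPR⟩
    have hn : Q ∉ 𝒜.filter fun R => le P R := fun h7 => hPQ (mem_filter.1 h7).2
    have hcard : cnt le 𝒜 Q = cnt le 𝒜 P + 1 := by
      unfold cnt
      rw [hset, card_insert_of_notMem hn]
    obtain ⟨R, hR, h8, h9⟩ := ih P hP.2.1 (by omega)
    exact ⟨R, hR, ht _ _ _ hP.2.2 h8, h9⟩

/-- **One layer.** -/
theorem lay_step (hr : ∀ Q, le Q Q) (ht : ∀ P Q R, le P Q → le Q R → le P R)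
    (ha : ∀ P Q, le P Q → le Q P → P = Q)
    (hc : ∀ Q P R, le Q P → le Q R → le P R ∨ le R P) (hw : ∀ Q ∈ 𝒜, 0 ≤ w Q) (hB : 1 ≤ B)
    (hp : ∀ P ∈ 𝒜, ∑ Q ∈ 𝒜.filter (fun Q => le Q P), w Q ≤ B * w P) {i : ℕ} (hi : 1 ≤ i) :
    lay le 𝒜 w (i + 1) ≤ (1 - 1 / B) * lay le 𝒜 w i := by
  have hB0 : 0 < B := lt_of_lt_of_le one_pos hB
  set L := ∑ Q ∈ 𝒜.filter fun Q => cnt le 𝒜 Q = i, w Q with hL
  -- the layer and the rest
  have h1 : lay le 𝒜 w i = L + lay le 𝒜 w (i + 1) := by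
    unfold lay
    rw [hL, ← sum_union]
    · refine sum_congr ?_ fun _ _ => rfl
      ext Q
      rw [mem_union, mem_filter, mem_filter, mem_filter]
      constructor
      · rintro ⟨hQ, h⟩
        rcases h.eq_or_lt with h | h
        · exact Or.inl ⟨hQ, h.symm⟩
        · exact Or.inr ⟨hQ, h⟩
      · rintro (⟨hQ, h⟩ | ⟨hQ, h⟩)
        · exact ⟨hQ, h.ge⟩
        · exact ⟨hQ, by omega⟩
    · rw [disjoint_left]
      intro Q hQ hQ'
      rw [mem_filter] at hQ hQ'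
      omega
  -- everything lies below the layer
  have h2 : lay le 𝒜 w i ≤ B * L := by
    unfold lay
    rw [hL, mul_sum]
    refine le_trans ?_ (sum_le_sum fun P hP => hp P (mem_filter.1 hP).1)
    rw [← sum_biUnion]
    · refine sum_le_sum_of_subset_of_nonneg ?_ fun Q hQ _ => ?_
      · intro Q hQ
        rw [mem_filter] at hQ
        obtain ⟨P, hP, h3, h4⟩ := ex_layer hr ht ha hc hi (cnt le 𝒜 Q - i) Q hQ.1 (by omega)
        exact mem_biUnion.2 ⟨P, mem_filter.2 ⟨hP, h4⟩, mem_filter.2 ⟨hQ.1, h3⟩⟩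
      · obtain ⟨P, _, h3⟩ := mem_biUnion.1 hQ
        exact hw Q (mem_filter.1 h3).1
    · intro P hP P' hP' hne
      rw [Function.onFun, disjoint_left]
      intro Q hQ hQ'
      rw [mem_coe, mem_filter] at hP hP'
      rw [mem_filter] at hQ hQ'
      rcases hc Q P P' hQ.2 hQ'.2 with h3 | h3
      · exact hne (inc_of_cnt hr ht ha hP.1 (by omega) h3).symm
      · exact hne (inc_of_cnt hr ht ha hP'.1 (by omega) h3)
  have h5 : lay le 𝒜 w i / B ≤ L := by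
    rw [div_le_iff₀ hB0]
    linarith
  have h6 : (1 - 1 / B) * lay le 𝒜 w i = lay le 𝒜 w i - lay le 𝒜 w i / B := by
    field_simp
  rw [h6]
  linarith

/-- **Geometric decay of the layers.** -/
theorem lay_geo (hr : ∀ Q, le Q Q) (ht : ∀ P Q R, le P Q → le Q R → le P R)
    (ha : ∀ P Q, le P Q → le Q P → P = Q)
    (hc : ∀ Q P R, le Q P → le Q R → le P R ∨ le R P) (hw : ∀ Q ∈ 𝒜, 0 ≤ w Q) (hB : 1 ≤ B)
    (hp : ∀ P ∈ 𝒜, ∑ Q ∈ 𝒜.filter (fun Q => le Q P), w Q ≤ B * w P) :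
    ∀ i : ℕ, lay le 𝒜 w (i + 1) ≤ (1 - 1 / B) ^ i * ∑ Q ∈ 𝒜, w Q := by
  have hB0 : 0 < B := lt_of_lt_of_le one_pos hB
  have hq : 0 ≤ 1 - 1 / B := by
    rw [sub_nonneg, div_le_one hB0]
    exact hB
  intro i
  induction i with
  | zero =>
    rw [pow_zero, one_mul]
    unfold lay
    exact sum_le_sum_of_subset_of_nonneg (filter_subset _ _) fun Q hQ _ => hw Q hQ
  | succ i ih =>
    refine (lay_step hr ht ha hc hw hB hp (by omega)).trans ?_
    rw [pow_succ, mul_comm ((1 - 1 / B) ^ i), mul_assoc]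
    exact mul_le_mul_of_nonneg_left ih hq

/-- the same with the root: the weight of all members is at most `B` times a root weight -/
theorem lay_root (hr : ∀ Q, le Q Q) (ht : ∀ P Q R, le P Q → le Q R → le P R)
    (ha : ∀ P Q, le P Q → le Q P → P = Q)
    (hc : ∀ Q P R, le Q P → le Q R → le P R ∨ le R P) (hw : ∀ Q ∈ 𝒜, 0 ≤ w Q) (hB : 1 ≤ B)
    (hp : ∀ P ∈ 𝒜, ∑ Q ∈ 𝒜.filter (fun Q => le Q P), w Q ≤ B * w P) {W : ℝ}
    (hW : ∑ Q ∈ 𝒜, w Q ≤ B * W) (i : ℕ) :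
    lay le 𝒜 w (i + 1) ≤ B * (1 - 1 / B) ^ i * W := by
  have hB0 : 0 < B := lt_of_lt_of_le one_pos hB
  have hq : 0 ≤ 1 - 1 / B := by
    rw [sub_nonneg, div_le_one hB0]
    exact hB
  refine (lay_geo hr ht ha hc hw hB hp i).trans ?_
  calc (1 - 1 / B) ^ i * ∑ Q ∈ 𝒜, w Q ≤ (1 - 1 / B) ^ i * (B * W) :=
        mul_le_mul_of_nonneg_left hW (by positivity)
    _ = _ := by ring

/-! ### Dyadic squares -/

/-- the square `a = (k, n, m)` of scale `k` lies in the square `b` -/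
def sub (a b : ℕ × ℤ × ℤ) : Prop :=
  a.1 ≤ b.1 ∧ a.2.1 / 2 ^ (b.1 - a.1) = b.2.1 ∧ a.2.2 / 2 ^ (b.1 - a.1) = b.2.2

theorem dd (n : ℤ) {a b c : ℕ} (h : a ≤ b) (h' : b ≤ c) :
    n / 2 ^ (b - a) / 2 ^ (c - b) = n / 2 ^ (c - a) := by
  rw [Int.ediv_ediv_of_nonneg (by positivity), ← pow_add]
  congr 2
  omega

theorem sub_refl (a : ℕ × ℤ × ℤ) : sub a a := by
  refine ⟨le_rfl, ?_, ?_⟩ <;> simp

theorem sub_trans (a b c : ℕ × ℤ × ℤ) (h : sub a b) (h' : sub b c) : sub a c := by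
  refine ⟨h.1.trans h'.1, ?_, ?_⟩
  · rw [← dd _ h.1 h'.1, h.2.1, h'.2.1]
  · rw [← dd _ h.1 h'.1, h.2.2, h'.2.2]

theorem sub_antisymm (a b : ℕ × ℤ × ℤ) (h : sub a b) (h' : sub b a) : a = b := by
  have e : a.1 = b.1 := le_antisymm h.1 h'.1
  have h1 := h.2.1
  have h2 := h.2.2
  rw [e, Nat.sub_self, pow_zero, Int.ediv_one] at h1 h2
  exact Prod.ext e (Prod.ext h1 h2)

theorem sub_chain (a b c : ℕ × ℤ × ℤ) (h : sub a b) (h' : sub a c) : sub b c ∨ sub c b := by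
  rcases le_total b.1 c.1 with h3 | h3
  · refine Or.inl ⟨h3, ?_, ?_⟩
    · rw [← h.2.1, dd _ h.1 h3, h'.2.1]
    · rw [← h.2.2, dd _ h.1 h3, h'.2.2]
  · refine Or.inr ⟨h3, ?_, ?_⟩
    · rw [← h'.2.1, dd _ h'.1 h3, h.2.1]
    · rw [← h'.2.2, dd _ h'.1 h3, h.2.2]

/-- **(X1)** for dyadic squares: the weight of the members with more than `lam` containing members
(itself counted). -/
theorem pack_tail (𝒜 : Finset (ℕ × ℤ × ℤ)) (w : ℕ × ℤ × ℤ → ℝ) {B : ℝ} (hB : 1 ≤ B)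
    (hw : ∀ a ∈ 𝒜, 0 ≤ w a) (hp : ∀ a ∈ 𝒜, ∑ b ∈ 𝒜.filter (fun b => sub b a), w b ≤ B * w a)
    (lam : ℕ) : ∑ a ∈ 𝒜.filter (fun a => lam < (𝒜.filter fun b => sub a b).card), w a ≤
      (1 - 1 / B) ^ lam * ∑ a ∈ 𝒜, w a :=
  lay_geo sub_refl sub_trans sub_antisymm sub_chain hw hB hp lam

/-- members with the same number of containing members are not nested -/
theorem pack_inc (𝒜 : Finset (ℕ × ℤ × ℤ)) {a b : ℕ × ℤ × ℤ} (ha : a ∈ 𝒜)
    (he : (𝒜.filter fun c => sub b c).card = (𝒜.filter fun c => sub a c).card) (h : sub a b) :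
    b = a :=
  inc_of_cnt sub_refl sub_trans sub_antisymm ha he h

end

end Vale.Agent.P141.H867
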